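import Vale.Agent.Lib.P248.JMain

/-!
# P248: the volume product of joins and pyramids; the general Mahler conjecture under these operations

With `c_n = (n+1)^(n+1) / (n!)^2`, `join K K' = {((1-t) x, t y, t)} ⊆ ℝ^(n+m+1)` and
`pyramid K = {((1-t) x, t)} ⊆ ℝ^(n+1)`:
`P(join K K') / c_(n+m+1) = (P(K) / c_n) (P(K') / c_m)` and `P(pyramid K) / c_(n+1) = P(K) / c_n`.

Proof: about the point `((1-s) z, s z', s)` the polar of the join is, after a shear, the set of all
`(ξ, η, σ)` with `ξ ∈ (1 + s σ) (K - z)°`, `η ∈ (1 - (1-s) σ) (K' - z')°`; a Beta integral gives its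
volume `n! m! |(K-z)°| |(K'-z')°| / ((n+m+1)! (1-s)^(n+1) s^(m+1))`; the interior points of the join
are exactly these points with `z ∈ int K`, `z' ∈ int K'`, `0 < s < 1`; and `(1-s)^(n+1) s^(m+1)` is
largest at `s = (m+1)/(n+m+2)`.
-/

namespace Vale.Agent.Results.P248.AJoins

open MeasureTheory _root_.P254 _root_.P248

theorem result :
    (∀ (n m : ℕ) (K : Set (E n)) (K' : Set (E m)), IsCompact K → IsCompact K' →
      (interior K).Nonempty → (interior K').Nonempty →
      volProd (join K K')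
        = ENNReal.ofReal (mC (n + m + 1) / (mC n * mC m)) * (volProd K * volProd K')) ∧
    (∀ (n m : ℕ) (K : Set (E n)) (K' : Set (E m)), Body K → Body K' →
      Body (join K K') ∧ (MahlerStrong K → MahlerStrong K' → MahlerStrong (join K K'))) ∧
    (∀ (n : ℕ) (K : Set (E n)), IsCompact K →
      volProd (pyramid K) = ENNReal.ofReal (mC (n + 1) / mC n) * volProd K) ∧
    (∀ (n : ℕ) (K : Set (E n)), Body K →
      Body (pyramid K) ∧ (MahlerFor (pyramid K) ↔ MahlerFor K)) ∧
    (∀ n : ℕ, MahlerQ2 (n + 1) → MahlerQ2 n) :=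
  ⟨fun _ _ K K' hK hK' hi hi' => volProd_join K K' hK hK' hi hi',
    fun _ _ K K' h h' => ⟨body_join K K' h h', mahlerStrong_join K K' h h'⟩,
    fun _ K hK => volProd_pyramid K hK,
    fun _ K h => ⟨body_pyramid K h, mahlerFor_pyramid_iff K h⟩,
    fun _ h => mahlerQ2_of_succ h⟩

end Vale.Agent.Results.P248.AJoins
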