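import Vale.Agent.Lib.P248.Main

/-!
# P248: the volume product of a pyramid, and descent of the general Mahler conjecture in the dimension

For a compact set `K ⊆ ℝ^n` let `pyramid K = {((1-t) x, t) : x ∈ K, 0 ≤ t ≤ 1} ⊆ ℝ^(n+1)` and
`c_n = (n+1)^(n+1) / (n!)^2`.  Then `P(pyramid K) / c_(n+1) = P(K) / c_n`.  Hence a convex body
satisfies the general Mahler conjecture (with its equality clause) iff the pyramid over it does, and
the conjecture in dimension `n+1` implies the conjecture in dimension `n`.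

Proof: about the point `((1-s) z, s)` the polar of the pyramid is, after a shear, the set of all
`(η, σ)` with `σ ≤ 1/(1-s)` and `η ∈ (1 + s σ) (K - z)°`, of volume
`|(K-z)°| / ((n+1) s (1-s)^(n+1))`; the interior points of the pyramid are exactly these points with
`z ∈ int K`, `0 < s < 1`; and `s (1-s)^(n+1)` is largest at `s = 1/(n+2)`.
-/

namespace Vale.Agent.Results.P248.Pyramids

open MeasureTheory _root_.P254 _root_.P248

theorem result :
    (∀ (n : ℕ) (K : Set (E n)), IsCompact K →
      volProd (pyramid K) = ENNReal.ofReal (mC (n + 1) / mC n) * volProd K) ∧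
    (∀ (n : ℕ) (K : Set (E n)), Body K →
      Body (pyramid K) ∧
      (ENNReal.ofReal (mC (n + 1)) ≤ volProd (pyramid K) ↔ ENNReal.ofReal (mC n) ≤ volProd K) ∧
      (volProd (pyramid K) = ENNReal.ofReal (mC (n + 1)) ↔ volProd K = ENNReal.ofReal (mC n)) ∧
      (MahlerFor (pyramid K) ↔ MahlerFor K)) ∧
    (∀ n : ℕ, MahlerQ2 (n + 1) → MahlerQ2 n) ∧
    (∀ n : ℕ, (∀ K : Set (E (n + 1)), Body K → ENNReal.ofReal (mC (n + 1)) ≤ volProd K) →
      ∀ K : Set (E n), Body K → ENNReal.ofReal (mC n) ≤ volProd K) :=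
  ⟨fun _ K hK => volProd_pyramid K hK,
    fun _ K h => ⟨body_pyramid K h, le_pyramid_iff K h.1, eq_pyramid_iff K h.1,
      mahlerFor_pyramid_iff K h⟩,
    fun _ h => mahlerQ2_of_succ h,
    fun _ h K hK => (le_pyramid_iff K hK.1).1 (h _ (body_pyramid K hK))⟩

end Vale.Agent.Results.P248.Pyramids
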