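import Vale.Agent.Lib.P248.Power

/-! # P248: the symmetric volume product under Cartesian products; tensor power trick -/

namespace Vale.Agent.Results.P248.SymmetricProducts
open _root_.P248

theorem le_phi_iff {n : ℕ} (K : Set (Fin n → ℝ)) (t : ℝ) :
    t ≤ phi K ↔ t * (4 ^ n / n.factorial) ≤ volProd K := by
  have h4 : (0 : ℝ) < 4 ^ n := by positivity
  have hf : (0 : ℝ) < n.factorial := by positivity
  unfold phi
  rw [Fintype.card_fin, le_div_iff₀ h4, ← mul_div_assoc, div_le_iff₀ hf, mul_comm (volProd K)]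

theorem result :
    (∀ n m : ℕ, 0 < n → 0 < m → ∀ (K : Set (Fin n → ℝ)) (L : Set (Fin m → ℝ)),
      SymBody K → SymBody L →
      SymBody (prodF K L) ∧
      ((n + m).factorial : ℝ) * volProd (prodF K L)
        = (n.factorial * volProd K) * (m.factorial * volProd L)) ∧
    ((∀ θ : ℝ, 0 < θ → θ < 1 → ∃ c : ℝ, 0 < c ∧ ∀ n : ℕ, 0 < n →
        ∀ K : Set (Fin n → ℝ), SymBody K → c * θ ^ n * (4 ^ n / n.factorial) ≤ volProd K) →
      ∀ n : ℕ, 0 < n → ∀ K : Set (Fin n → ℝ), SymBody K → 4 ^ n / n.factorial ≤ volProd K) ∧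
    (∀ n m : ℕ, 0 < n → 0 < m →
      (∀ K : Set (Fin (n + m) → ℝ), SymBody K →
        4 ^ (n + m) / (n + m).factorial ≤ volProd K) →
      ∀ K : Set (Fin n → ℝ), SymBody K → 4 ^ n / n.factorial ≤ volProd K) := by
  refine ⟨?_, ?_, ?_⟩
  · intro n m hn hm K L hK hL
    refine ⟨symBody_prodF K L hK hL, ?_⟩
    have h := phi_prodF hn hm K L hK hL
    unfold phi at h
    simp only [Fintype.card_fin] at h
    have h4 : (4 : ℝ) ^ n ≠ 0 := by positivity
    have h4' : (4 : ℝ) ^ m ≠ 0 := by positivity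
    rw [pow_add] at h
    field_simp at h
    linarith
  · intro H n hn K hK
    have := tensor_trick (fun θ h0 h1 => by
      obtain ⟨c, hc, hH⟩ := H θ h0 h1
      exact ⟨c, hc, fun n hn K hK => (le_phi_iff K _).2 (hH n hn K hK)⟩) n hn K hK
    simpa using (le_phi_iff K 1).1 this
  · intro n m hn hm H K hK
    have := descent hn hm (fun K hK => (le_phi_iff K 1).2 (by simpa using H K hK)) K hK
    simpa using (le_phi_iff K 1).1 this

end Vale.Agent.Results.P248.SymmetricProducts
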